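import Vale.Agent.P361.Final
import Vale.Agent.P361.Sym
import Vale.Agent.P361.Convx
import Vale.Agent.P361.Asym
import Vale.Agent.P361.Bose
import Vale.Agent.P361.PLim

open Filter Topology MeasureTheory

namespace Vale.Agent.Results.P361.OneSidedBloch

open Vale.Agent.P361

theorem plim : PLIM := PL.plim_proof

theorem thermo : THERMO :=
  have hGib : GIB := Gi.gib_proof SI.site_proof LO.loc_proof
  have hExb : EXB := Ex.exb_proof SI.site_proof LO.loc_proof hGib
  have hDc : DC := DCm.dc_proof LO.loc_proof SI.site_proof (DF.dotf_proof SI.site_proof)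
  have hDb : DB := Dbb.db_proof hDc hGib hExb
  have hFin : FIN := Fn.fin_proof Rb.rb_proof hGib hExb hDb Geo.geo_proof PA.pars_proof GI.gint_proof
  Th.thermo_proof hFin (Cx.convx_proof SI.site_proof LO.loc_proof (DF.dotf_proof SI.site_proof) hGib) plim

theorem convx : CONVX :=
  Cx.convx_proof SI.site_proof LO.loc_proof (DF.dotf_proof SI.site_proof)
    (Gi.gib_proof SI.site_proof LO.loc_proof)

/-- The one-sided Bloch law for every spin S = s/2, with the predicted coefficient. -/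
theorem result : ∀ s : ℕ, 1 ≤ s →
    (∀ β : ℝ, 0 < β →
      (∀ h : ℝ, Tendsto (fun N : ℕ => pN s N β h) atTop (𝓝 (pressure s β h))) ∧
      ConvexOn ℝ Set.univ (pressure s β) ∧
      HasDerivWithinAt (pressure s β) (mS s β) (Set.Ioi 0) 0 ∧
      0 ≤ mS s β ∧ mS s β ≤ (s : ℝ) / 2 ∧
      (0 < mS s β →
        IntegrableOn (fun k : Fin 3 → ℝ => (Real.exp (β * (((s : ℝ) - mS s β) / mS s β *
            (s * ∑ j, (1 - Real.cos (k j))))) - 1)⁻¹)
          (Set.Icc (fun _ => -Real.pi) (fun _ => Real.pi)) ∧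
        mS s β / ((s : ℝ) / 2) * ((1 / (2 * Real.pi) ^ 3) *
          ∫ k in Set.Icc (fun _ : Fin 3 => -Real.pi) (fun _ : Fin 3 => Real.pi),
            (Real.exp (β * (((s : ℝ) - mS s β) / mS s β *
              (s * ∑ j, (1 - Real.cos (k j))))) - 1)⁻¹) ≤ (s : ℝ) / 2 - mS s β)) ∧
    (((riemannZeta (3 / 2)).re /
        (8 * Real.pi ^ (3 / 2 : ℝ) * ((s : ℝ) / 2) ^ (3 / 2 : ℝ)) : ℝ) : EReal) ≤
      liminf (fun β : ℝ => ((β ^ (3 / 2 : ℝ) * ((s : ℝ) / 2 - mS s β) : ℝ) : EReal)) atTop := by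
  intro s hs
  refine ⟨?_, Fi.liminf_of thermo Asym.asym_proof s hs⟩
  intro β hβ
  have hc := Th.pressure_convex plim convx s β hβ
  refine ⟨fun h => Th.tendsto_pressure plim s β h hβ, hc, ?_, Sy.mS_nonneg SI.site_proof s β hc,
    Th.mS_le plim convx s β hβ, fun hm => Fi.bose_of thermo (Bo.bose_proof GI.gint_proof) s hs β hβ hm⟩
  exact (hc.differentiableWithinAt_Ioi_of_mem_interior (x := 0) (by simp)).hasDerivWithinAt

end Vale.Agent.Results.P361.OneSidedBloch
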